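import Vale.Agent.P047.Final

namespace Vale.Agent.Results.P047.Disproof

/-- The Fourier coefficient of a Boolean function on the cube: the average over all points `x`
of `f x` times the product of the coordinates `x i`, `i ∈ S`. The two units of the integers are
`1` and `-1`. -/
noncomputable def coeff {n : ℕ} (f : (Fin n → Units ℤ) → Units ℤ) (S : Finset (Fin n)) : ℝ :=
  (∑ x : Fin n → Units ℤ, ((f x : ℤ) : ℝ) * ∏ i ∈ S, ((x i : ℤ) : ℝ)) / 2 ^ n

open Classical in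
/-- The degree: the largest size of a set with non-zero Fourier coefficient. -/
noncomputable def degree {n : ℕ} (f : (Fin n → Units ℤ) → Units ℤ) : ℕ :=
  (Finset.univ.filter fun S : Finset (Fin n) => coeff f S ≠ 0).sup Finset.card

/-- The sum of the level-one Fourier coefficients. -/
noncomputable def levelOne {n : ℕ} (f : (Fin n → Units ℤ) → Units ℤ) : ℝ :=
  ∑ i : Fin n, coeff f {i}

/-- The extremal quantity of the problem. -/
noncomputable def extremal (d : ℕ) : ℝ :=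
  sSup {L : ℝ | ∃ n : ℕ, 1 ≤ n ∧ ∃ f : (Fin n → Units ℤ) → Units ℤ, degree f ≤ d ∧ L = levelOne f}

theorem degree_le_iff {n d : ℕ} (f : (Fin n → Units ℤ) → Units ℤ) :
    degree f ≤ d ↔ ∀ S : Finset (Fin n), d < S.card →
      ∑ x, Vale.Agent.P047.sg (f x) * ∏ i ∈ S, Vale.Agent.P047.sg (x i) = 0 := by
  unfold degree
  rw [Finset.sup_le_iff]
  constructor
  · intro h S hS
    by_contra hc
    refine absurd (h S (Finset.mem_filter.mpr ⟨Finset.mem_univ _, ?_⟩)) (not_le.mpr hS)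
    exact div_ne_zero hc (by positivity)
  · intro h S hS
    by_contra hc
    apply (Finset.mem_filter.mp hS).2
    have := h S (not_le.mp hc)
    unfold coeff
    exact div_eq_zero_iff.mpr (Or.inl this)

theorem levelOne_eq {n : ℕ} (f : (Fin n → Units ℤ) → Units ℤ) : levelOne f =
    ∑ i : Fin n, (∑ x, Vale.Agent.P047.sg (f x) * Vale.Agent.P047.sg (x i)) / 2 ^ n := by
  simp [levelOne, coeff, Vale.Agent.P047.sg]

theorem result :
    (∀ C : ℝ, ∃ n : ℕ, 1 ≤ n ∧ ∃ f : (Fin n → Units ℤ) → Units ℤ,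
      C * Real.sqrt (degree f) < levelOne f) ∧
    (∃ ε : ℝ, 0 < ε ∧ ∃ c : ℝ, 0 < c ∧ ∀ d : ℕ, 1 ≤ d →
      (∃ n : ℕ, 1 ≤ n ∧ ∃ f : (Fin n → Units ℤ) → Units ℤ,
        degree f ≤ d ∧ c * (d : ℝ) ^ (1 / 2 + ε) ≤ levelOne f) ∧
      c * (d : ℝ) ^ (1 / 2 + ε) ≤ extremal d) := by
  obtain ⟨ε, hε, c, hc, h⟩ := Vale.Agent.P047.growth
  have h' : ∀ d : ℕ, 1 ≤ d → ∃ n : ℕ, 1 ≤ n ∧ ∃ f : (Fin n → Units ℤ) → Units ℤ,
      degree f ≤ d ∧ c * (d : ℝ) ^ (1 / 2 + ε) ≤ levelOne f := by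
    intro d hd
    obtain ⟨n, hn, f, hf, hL⟩ := h d hd
    exact ⟨n, hn, f, (degree_le_iff f).mpr hf, by rw [levelOne_eq]; exact hL⟩
  refine ⟨fun C => ?_, ε, hε, c, hc, fun d hd => ⟨h' d hd, ?_⟩⟩
  · have ht : Filter.Tendsto (fun d : ℕ => (d : ℝ) ^ ε) Filter.atTop Filter.atTop :=
      (tendsto_rpow_atTop hε).comp tendsto_natCast_atTop_atTop
    obtain ⟨d, hd1, hd2⟩ := ((ht.eventually_gt_atTop (|C| / c)).and
      (Filter.eventually_ge_atTop 1)).exists
    obtain ⟨n, hn, f, hf, hL⟩ := h' d hd2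
    refine ⟨n, hn, f, lt_of_lt_of_le ?_ hL⟩
    have hd0 : (0 : ℝ) < d := by exact_mod_cast hd2
    have h1 : Real.sqrt (degree f) ≤ Real.sqrt d := Real.sqrt_le_sqrt (by exact_mod_cast hf)
    have h2 : C * Real.sqrt (degree f) ≤ |C| * Real.sqrt d :=
      mul_le_mul (le_abs_self C) h1 (Real.sqrt_nonneg _) (abs_nonneg C)
    rw [Real.rpow_add hd0, ← Real.sqrt_eq_rpow]
    rw [div_lt_iff₀ hc] at hd1
    have h3 : 0 < Real.sqrt d := Real.sqrt_pos.mpr hd0
    nlinarith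
  · obtain ⟨n, hn, f, hf, hL⟩ := h' d hd
    refine hL.trans (le_csSup ⟨d, ?_⟩ ⟨n, hn, f, hf, rfl⟩)
    rintro L ⟨m, _, g, hg, rfl⟩
    rw [levelOne_eq]
    exact Vale.Agent.P047.level_one_le g ((degree_le_iff g).mp hg)

end Vale.Agent.Results.P047.Disproof
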